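import Vale.Agent.ThorpO.Rep

/-!
# P162: statements of the pieces of part ALPHA (do not import this file in proofs)
-/

open scoped InnerProductSpace
open Equiv Finset

namespace Vale.Agent.ThorpO.AlphaStub

/-- A1 (file `Flat.lean`): `T` passes are `(d + 1) T` shuffles. -/
theorem flat_norm (d T t : ℕ) (h : (d + 1) * T ≤ t) :
    ‖((Thorp.avgOf (Thorp.reg (Fin (2 * 2 ^ d))) (Thorp.shuf (2 ^ d))) ^ t)
      (Thorp.dlt (Fin (2 * 2 ^ d)))‖ ≤ ‖((PP (d + 1)) ^ T) (Thorp.dlt (Pos (d + 1)))‖ := sorry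

/-- A1' (file `Flat.lean`): contraction on the high levels. -/
theorem decay (m r b : ℕ) (hb : b + 1 ≤ 2 ^ m) {v : EuclideanSpace ℝ (Perm (Pos m))}
    (hv : v ∈ (Thorp.PD.W (Pos m) b)ᗮ) :
    ‖((PP m) ^ r) v‖ ^ 2 ≤ Real.exp (-(r * (b + 1) / 144)) * ‖v‖ ^ 2 := sorry

/-- A3 (file `Level.lean`). -/
theorem level_trace (m j : ℕ) (hj : 1 ≤ j) (hjm : j ≤ 2 ^ m) :
    ((2 ^ m).factorial : ℝ) *
      ‖((PP m) ^ 1024) (Thorp.PD.comp (Pos m) (j - 1) - Thorp.PD.comp (Pos m) j)‖ ^ 2 ≤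
      ((2 ^ m).choose j : ℝ) * ((benes m j m) ^ 1024).trace := sorry

/-- A3' (file `Level.lean`). -/
theorem all_trace (m b : ℕ) :
    ((2 ^ m).factorial : ℝ) * ‖((PP m) ^ 1024) (Thorp.PD.comp (Pos m) b)‖ ^ 2 ≤
      ((benes m (2 ^ m) m) ^ 1024).trace := sorry

/-- A4 (file `Norm.lean`). -/
theorem level_norm (m j g r : ℕ) (hj : 1 ≤ j) (hg : 1 ≤ g) (h : 2 ^ (34 * g) * j ≤ 2 ^ m)
    {v : EuclideanSpace ℝ (Perm (Pos m))} (hv : v ∈ Thorp.PD.W (Pos m) j)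
    (hv' : v ∈ (Thorp.PD.W (Pos m) (j - 1))ᗮ) :
    ‖((PP m) ^ (1024 * r)) v‖ ^ 2 ≤ ((Real.exp 3073 / 2 ^ g) ^ j) ^ r * ‖v‖ ^ 2 := sorry

/-- A5, A6 (file `Main.lean`), from the above and `Thorp.tv_le`. -/
theorem main_upper : ∃ T : ℕ, ∀ d t : ℕ, T * (d + 1) ≤ t → Thorp.tv (2 ^ d) t ≤ 1 / 4 := sorry

end Vale.Agent.ThorpO.AlphaStub
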