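import Vale.Agent.ThorpO.Defs
import Vale.Agent.Thorp.PartC
import Vale.Agent.Thorp.PartD

/-!
# P162, `t_mix (2 ^ d) = O(d)`: statements of the parts (do not import this file in proofs)
-/

namespace Vale.Agent.ThorpO.Stub

open Equiv Finset

/-- PART STAR (helper2), file `Star.lean`. -/
theorem star (d k : ℕ) (x y : Fin k ↪ Pos d) :
    (av fun ωi : Coins d => av fun ωo : Coins d =>
      if ∀ c, net ωi ωo d (x c) = y c then ((2 : ℝ) ^ YY ωi ωo d (univ.image x))⁻¹ else 0) ≤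
      (((2 : ℝ) ^ d) ^ k)⁻¹ := sorry

/-- PART LD, file `LD.lean`. -/
theorem LD (d l β : ℕ) (hl : l + 8 * β ≤ d) (a : Perm (Pos d)) (D : Finset (Pos d)) :
    (av fun ω : Coins d =>
      (2 : ℝ) ^ ((β / 16 : ℝ) * (orbs (fun z => a (win ω l (8 * β) z)) D : ℝ))) ≤
      Real.exp (2 * D.card / 2 ^ β) := sorry

/-- PART B, file `PartB.lean` (uses `LD`). -/
theorem partB (d g k : ℕ) (hg : 1 ≤ g) (ωi : Coins d) (D : ℕ → Finset (Pos d))
    (hD : ∀ r, ∀ z ∈ D r, bit z r = false) (hDk : ∀ r, 2 * (D r).card ≤ k) :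
    (av fun ωo : Coins d => (2 : ℝ) ^ ((1 / 512 : ℝ) *
      ∑ r ∈ Finset.Ico (16 * g) d, (orbs (HH ωi ωo r) (D r) : ℝ))) ≤
      Real.exp (2 * k / 2 ^ g) := sorry

/-- PART TRACE (helper2), file `Trace.lean` (uses `star` and `partB`). -/
theorem trace_bound (d g k : ℕ) (hg : 1 ≤ g) :
    ((benes d k d) ^ 1024).trace ≤
      Real.exp (k * (2046 / 2 ^ g + k / 2 ^ d * 2 ^ (32 * g))) := sorry

/-- PART DELTA, file `Delta.lean`. -/
theorem delta (d j M : ℕ) (hj : 1 ≤ j) (hd : 4 * j < 2 ^ d) (hk : j * (M + 1) ≤ 2 ^ d)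
    (f : (Fin j ↪ Pos d) → ℝ) (hf : f ≠ 0) (hp : Pure f) (s : ℝ)
    (hs : ∀ x, ∑ y, benes d j d x y * f y = s * f x) :
    (M : ℝ) ^ j * s ^ 1024 ≤ ((benes d (j * (M + 1)) d) ^ 1024).trace := sorry

/-- PART SCHATTEN (with DELTA), file `Schatten.lean`. -/
theorem schatten {n : Type*} [Fintype n] [DecidableEq n] (B : Matrix n n ℝ) (i : ℕ) :
    ∑ x, ∑ y, ((B ^ (2 ^ i)) x y) ^ 2 ≤ ((B * B.transpose) ^ (2 ^ i)).trace := sorry

/-- The Benes matrix is `B * Bᵀ` for the pass matrix `B` (with ALPHA), file `Flat.lean`. -/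
theorem benes_eq (d k r : ℕ) :
    benes d k r = passM d k r * (passM d k r).transpose := sorry

/-- PART ALPHA (assembly), files `Flat.lean`, `Alpha.lean`, `Main.lean`. -/
theorem main_upper : ∃ T : ℕ, ∀ d t : ℕ, T * (d + 1) ≤ t → Thorp.tv (2 ^ d) t ≤ 1 / 4 := sorry

/-- PART LOWER: elementary counting bound, file `Lower.lean`. -/
theorem main_lower : ∃ c : ℝ, 0 < c ∧ ∀ d t : ℕ, Thorp.tv (2 ^ d) t ≤ 1 / 4 →
    c * (d + 1) ≤ t := sorry

end Vale.Agent.ThorpO.Stub
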